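import Vale.Agent.Lib.P362.Interface

/-! P362, part L: product of independent components. -/

namespace P362

namespace DT

/-- substitution of the variables by new variables or constants -/
def psub {V W R : Type} (g : V → W ⊕ Bool) : DT V R → DT W R
  | leaf r => leaf r
  | node v t0 t1 =>
    match g v with
    | Sum.inl w => node w (psub g t0) (psub g t1)
    | Sum.inr b => if b then psub g t1 else psub g t0

theorem depth_psub_le {V W R : Type} (g : V → W ⊕ Bool) (T : DT V R) :
    (T.psub g).depth ≤ T.depth := by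
  induction T with
  | leaf r => exact le_rfl
  | node v t0 t1 h0 h1 =>
    unfold psub
    cases g v with
    | inl w =>
      simp only [depth]
      omega
    | inr b =>
      cases b
      · simp only [depth, Bool.false_eq_true, if_false]
        omega
      · simp only [depth, if_true]
        omega

theorem eval_psub {V W R : Type} (g : V → W ⊕ Bool) (T : DT V R) (z : W → Bool) :
    (T.psub g).eval z = T.eval (fun v => Sum.elim z id (g v)) := by
  induction T with
  | leaf r => rfl
  | node v t0 t1 h0 h1 =>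
    unfold psub
    cases hg : g v with
    | inl w =>
      simp only [eval, h0, h1, hg, Sum.elim_inl]
    | inr b =>
      cases b
      · simp only [eval, h0, hg, Sum.elim_inr, id, Bool.false_eq_true, if_false]
      · simp only [eval, h1, hg, Sum.elim_inr, id, if_true]

end DT

section

variable {D : Type} [Fintype D] [DecidableEq D] {X : D → Type} [∀ d, Fintype (X d)]
    [∀ d, DecidableEq (X d)]

/-- acceptance probability for a product law, inputs as families -/
noncomputable def accP (κ : (d : D) → (X d → Bool) → ℝ) (T : DT (Σ d, X d) Bool) : ℝ :=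
  ∑ y : (d : D) → X d → Bool, (∏ d, κ d (y d)) *
    (if T.eval (fun p => y p.1 p.2) = true then 1 else 0)

theorem acc_eq_accP (κ : (d : D) → (X d → Bool) → ℝ) (T : DT (Σ d, X d) Bool) :
    acc (fun x : (Σ d, X d) → Bool => ∏ d, κ d (fun v => x ⟨d, v⟩)) T = accP κ T := by
  unfold acc accP
  rw [← Equiv.sum_comp (Equiv.piCurry (fun (d : D) (_ : X d) => Bool))]
  refine Finset.sum_congr rfl fun x _ => ?_
  have h1 : (fun p : (Σ d, X d) => (Equiv.piCurry (fun (d : D) (_ : X d) => Bool)) x p.1 p.2) =
      x := by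
    funext p
    rfl
  rw [h1, mul_ite, mul_one, mul_zero]
  rfl

/-- the assignment of the variables of the other components -/
def splitSub (d0 : D) (r : (d : {d : D // d ≠ d0}) → X d → Bool) :
    (Σ d, X d) → X d0 ⊕ Bool
  | ⟨d, v⟩ => if h : d = d0 then Sum.inl (h ▸ v) else Sum.inr (r ⟨d, h⟩ v)

theorem accP_split (κ : (d : D) → (X d → Bool) → ℝ) (T : DT (Σ d, X d) Bool) (d0 : D) :
    accP κ T = ∑ r : (d : {d : D // d ≠ d0}) → X d → Bool,
      (∏ d : {d : D // d ≠ d0}, κ d (r d)) * acc (κ d0) (T.psub (splitSub d0 r)) := by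
  unfold accP acc
  rw [← Equiv.sum_comp (Equiv.piSplitAt d0 (fun d => X d → Bool)).symm, Fintype.sum_prod_type,
    Finset.sum_comm]
  refine Finset.sum_congr rfl fun r _ => ?_
  rw [Finset.mul_sum]
  refine Finset.sum_congr rfl fun z _ => ?_
  set y := (Equiv.piSplitAt d0 (fun d => X d → Bool)).symm (z, r) with hy
  have e0 : y d0 = z := by
    rw [hy]
    simp [Equiv.piSplitAt]
  have e1 : ∀ d : {d : D // d ≠ d0}, y d = r d := by
    rintro ⟨d, hd⟩
    rw [hy]
    simp [Equiv.piSplitAt, hd]
  rw [Fintype.prod_eq_mul_prod_subtype_ne (fun d => κ d (y d)) d0, e0]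
  have e2 : ∏ d : {d : D // d ≠ d0}, κ d (y d) = ∏ d : {d : D // d ≠ d0}, κ d (r d) :=
    Finset.prod_congr rfl fun d _ => by rw [e1 d]
  rw [e2, DT.eval_psub]
  have e3 : (fun p : (Σ d, X d) => y p.1 p.2) =
      fun v => Sum.elim z id (splitSub d0 r v) := by
    funext p
    obtain ⟨d, v⟩ := p
    by_cases h : d = d0
    · subst h
      simp [splitSub, e0]
    · have := e1 ⟨d, h⟩
      simp only at this
      simp [splitSub, h, this]
  rw [e3]
  split_ifs <;> ring

theorem accP_step (κ κ' : (d : D) → (X d → Bool) → ℝ) (d0 : D) (η : ℝ) (q : ℕ)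
    (hκ : ∀ d, IsLaw (κ d)) (heq : ∀ d, d ≠ d0 → κ d = κ' d)
    (h : ∀ T : DT (X d0) Bool, T.depth ≤ q → |acc (κ d0) T - acc (κ' d0) T| ≤ η)
    (T : DT (Σ d, X d) Bool) (hT : T.depth ≤ q) : |accP κ T - accP κ' T| ≤ η := by
  rw [accP_split κ T d0, accP_split κ' T d0]
  have h1 : ∀ r : (d : {d : D // d ≠ d0}) → X d → Bool,
      (∏ d : {d : D // d ≠ d0}, κ' d (r d)) = ∏ d : {d : D // d ≠ d0}, κ d (r d) := fun r =>
    Finset.prod_congr rfl fun d _ => by rw [heq d d.2]
  have hR : ∑ r : (d : {d : D // d ≠ d0}) → X d → Bool,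
      (∏ d : {d : D // d ≠ d0}, κ' d (r d)) * acc (κ' d0) (T.psub (splitSub d0 r)) =
      ∑ r : (d : {d : D // d ≠ d0}) → X d → Bool,
      (∏ d : {d : D // d ≠ d0}, κ d (r d)) * acc (κ' d0) (T.psub (splitSub d0 r)) :=
    Finset.sum_congr rfl fun r _ => by rw [h1 r]
  rw [hR, ← Finset.sum_sub_distrib]
  refine (Finset.abs_sum_le_sum_abs _ _).trans ?_
  have h2 : ∀ r : (d : {d : D // d ≠ d0}) → X d → Bool,
      |(∏ d : {d : D // d ≠ d0}, κ d (r d)) * acc (κ d0) (T.psub (splitSub d0 r)) -
        (∏ d : {d : D // d ≠ d0}, κ d (r d)) * acc (κ' d0) (T.psub (splitSub d0 r))| ≤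
      (∏ d : {d : D // d ≠ d0}, κ d (r d)) * η := by
    intro r
    have hp : 0 ≤ ∏ d : {d : D // d ≠ d0}, κ d (r d) :=
      Finset.prod_nonneg fun d _ => (hκ d).1 _
    rw [← mul_sub, abs_mul, abs_of_nonneg hp]
    exact mul_le_mul_of_nonneg_left (h _ ((DT.depth_psub_le _ _).trans hT)) hp
  refine (Finset.sum_le_sum fun r _ => h2 r).trans ?_
  rw [← Finset.sum_mul]
  have h3 : ∑ r : (d : {d : D // d ≠ d0}) → X d → Bool,
      ∏ d : {d : D // d ≠ d0}, κ d (r d) = 1 := by
    have h4 := Finset.prod_univ_sum (fun d : {d : D // d ≠ d0} => (Finset.univ : Finset (X d → Bool)))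
      (fun d z => κ d z)
    rw [Fintype.piFinset_univ] at h4
    rw [← h4]
    exact Finset.prod_eq_one fun d _ => (hκ d).2
  rw [h3, one_mul]

end

theorem partProd : PartProd := by
  intro D _ _ X _ _ μ ν η q hμ hν h T hT
  rw [acc_eq_accP, acc_eq_accP]
  have key : ∀ s : Finset D, |accP (fun d => if d ∈ s then ν d else μ d) T - accP μ T| ≤
      ∑ d ∈ s, η d := by
    intro s
    induction s using Finset.induction_on with
    | empty => simp
    | insert a s ha ih =>
      rw [Finset.sum_insert ha]
      have h1 : |accP (fun d => if d ∈ insert a s then ν d else μ d) T -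
          accP (fun d => if d ∈ s then ν d else μ d) T| ≤ η a := by
        refine accP_step _ _ a (η a) q (fun d => ?_) (fun d hd => ?_) (fun T' hT' => ?_) T hT
        · split_ifs
          · exact hν d
          · exact hμ d
        · rw [if_congr (Finset.mem_insert.trans (or_iff_right hd)) rfl rfl]
        · rw [if_pos (Finset.mem_insert_self a s), if_neg ha]
          exact h a T' hT'
      calc _ = |(accP (fun d => if d ∈ insert a s then ν d else μ d) T -
          accP (fun d => if d ∈ s then ν d else μ d) T) +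
          (accP (fun d => if d ∈ s then ν d else μ d) T - accP μ T)| := by
            rw [sub_add_sub_cancel]
        _ ≤ _ := (abs_add_le _ _).trans (add_le_add h1 ih)
  have h2 := key Finset.univ
  simpa using h2

end P362
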